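import Mathlib

/-!
P318 (uniform sparsest cut): the cut-cone property of semimetrics on at most four points.

If `w` is a symmetric weight function on at most four points whose cut sums
`∑ i ∈ S, ∑ j ∈ Sᶜ, w i j` are all nonnegative, then `∑ i, ∑ j, w i j * d i j ≥ 0` for every
semimetric `d` on these points.  (Every semimetric on at most four points is a nonnegative
combination of cut semimetrics; the proof writes the decomposition down explicitly, with three
cases according to the largest of the three matching sums.)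
-/

namespace Vale.Agent.Lib.P318

open Finset

private lemma four_aux (w01 w02 w03 w12 w13 w23 d01 d02 d03 d12 d13 d23 : ℝ)
    (t012 : d01 ≤ d02 + d12) (t021 : d02 ≤ d01 + d12) (t120 : d12 ≤ d01 + d02)
    (t013 : d01 ≤ d03 + d13) (t031 : d03 ≤ d01 + d13) (t130 : d13 ≤ d01 + d03)
    (t023 : d02 ≤ d03 + d23) (t032 : d03 ≤ d02 + d23) (t230 : d23 ≤ d02 + d03)
    (t123 : d12 ≤ d13 + d23) (t132 : d13 ≤ d12 + d23) (t231 : d23 ≤ d12 + d13)
    (c0 : 0 ≤ w01 + w02 + w03) (c1 : 0 ≤ w01 + w12 + w13) (c2 : 0 ≤ w02 + w12 + w23)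
    (c3 : 0 ≤ w03 + w13 + w23) (c01 : 0 ≤ w02 + w03 + w12 + w13)
    (c02 : 0 ≤ w01 + w03 + w12 + w23) (c03 : 0 ≤ w01 + w02 + w13 + w23) :
    0 ≤ w01 * d01 + w02 * d02 + w03 * d03 + w12 * d12 + w13 * d13 + w23 * d23 := by
  -- matching sums: A = d01 + d23, B = d02 + d13, C = d03 + d12
  rcases le_total (d01 + d23) (d03 + d12) with hAC | hCA
  · rcases le_total (d02 + d13) (d03 + d12) with hBC | hCB
    · -- C is the largest
      have e : w01 * d01 + w02 * d02 + w03 * d03 + w12 * d12 + w13 * d13 + w23 * d23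
          = (d01 + d02 - d12) / 2 * (w01 + w02 + w03)
            + (d01 + d13 - d03) / 2 * (w01 + w12 + w13)
            + (d02 + d23 - d03) / 2 * (w02 + w12 + w23)
            + (d13 + d23 - d12) / 2 * (w03 + w13 + w23)
            + ((d03 + d12) - (d01 + d23)) / 2 * (w02 + w03 + w12 + w13)
            + ((d03 + d12) - (d02 + d13)) / 2 * (w01 + w03 + w12 + w23) := by ring
      rw [e]
      have h1 := mul_nonneg (by linarith : 0 ≤ (d01 + d02 - d12) / 2) c0
      have h2 := mul_nonneg (by linarith : 0 ≤ (d01 + d13 - d03) / 2) c1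
      have h3 := mul_nonneg (by linarith : 0 ≤ (d02 + d23 - d03) / 2) c2
      have h4 := mul_nonneg (by linarith : 0 ≤ (d13 + d23 - d12) / 2) c3
      have h5 := mul_nonneg (by linarith : 0 ≤ ((d03 + d12) - (d01 + d23)) / 2) c01
      have h6 := mul_nonneg (by linarith : 0 ≤ ((d03 + d12) - (d02 + d13)) / 2) c02
      linarith
    · -- B is the largest
      have e : w01 * d01 + w02 * d02 + w03 * d03 + w12 * d12 + w13 * d13 + w23 * d23
          = (d01 + d03 - d13) / 2 * (w01 + w02 + w03)
            + (d01 + d12 - d02) / 2 * (w01 + w12 + w13)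
            + (d12 + d23 - d13) / 2 * (w02 + w12 + w23)
            + (d03 + d23 - d02) / 2 * (w03 + w13 + w23)
            + ((d02 + d13) - (d01 + d23)) / 2 * (w02 + w03 + w12 + w13)
            + ((d02 + d13) - (d03 + d12)) / 2 * (w01 + w02 + w13 + w23) := by ring
      rw [e]
      have h1 := mul_nonneg (by linarith : 0 ≤ (d01 + d03 - d13) / 2) c0
      have h2 := mul_nonneg (by linarith : 0 ≤ (d01 + d12 - d02) / 2) c1
      have h3 := mul_nonneg (by linarith : 0 ≤ (d12 + d23 - d13) / 2) c2
      have h4 := mul_nonneg (by linarith : 0 ≤ (d03 + d23 - d02) / 2) c3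
      have h5 := mul_nonneg (by linarith : 0 ≤ ((d02 + d13) - (d01 + d23)) / 2) c01
      have h6 := mul_nonneg (by linarith : 0 ≤ ((d02 + d13) - (d03 + d12)) / 2) c03
      linarith
  · rcases le_total (d02 + d13) (d01 + d23) with hBA | hAB
    · -- A is the largest
      have e : w01 * d01 + w02 * d02 + w03 * d03 + w12 * d12 + w13 * d13 + w23 * d23
          = (d02 + d03 - d23) / 2 * (w01 + w02 + w03)
            + (d12 + d13 - d23) / 2 * (w01 + w12 + w13)
            + (d02 + d12 - d01) / 2 * (w02 + w12 + w23)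
            + (d03 + d13 - d01) / 2 * (w03 + w13 + w23)
            + ((d01 + d23) - (d03 + d12)) / 2 * (w01 + w02 + w13 + w23)
            + ((d01 + d23) - (d02 + d13)) / 2 * (w01 + w03 + w12 + w23) := by ring
      rw [e]
      have h1 := mul_nonneg (by linarith : 0 ≤ (d02 + d03 - d23) / 2) c0
      have h2 := mul_nonneg (by linarith : 0 ≤ (d12 + d13 - d23) / 2) c1
      have h3 := mul_nonneg (by linarith : 0 ≤ (d02 + d12 - d01) / 2) c2
      have h4 := mul_nonneg (by linarith : 0 ≤ (d03 + d13 - d01) / 2) c3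
      have h5 := mul_nonneg (by linarith : 0 ≤ ((d01 + d23) - (d03 + d12)) / 2) c03
      have h6 := mul_nonneg (by linarith : 0 ≤ ((d01 + d23) - (d02 + d13)) / 2) c02
      linarith
    · -- B is the largest
      have e : w01 * d01 + w02 * d02 + w03 * d03 + w12 * d12 + w13 * d13 + w23 * d23
          = (d01 + d03 - d13) / 2 * (w01 + w02 + w03)
            + (d01 + d12 - d02) / 2 * (w01 + w12 + w13)
            + (d12 + d23 - d13) / 2 * (w02 + w12 + w23)
            + (d03 + d23 - d02) / 2 * (w03 + w13 + w23)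
            + ((d02 + d13) - (d01 + d23)) / 2 * (w02 + w03 + w12 + w13)
            + ((d02 + d13) - (d03 + d12)) / 2 * (w01 + w02 + w13 + w23) := by ring
      rw [e]
      have h1 := mul_nonneg (by linarith : 0 ≤ (d01 + d03 - d13) / 2) c0
      have h2 := mul_nonneg (by linarith : 0 ≤ (d01 + d12 - d02) / 2) c1
      have h3 := mul_nonneg (by linarith : 0 ≤ (d12 + d23 - d13) / 2) c2
      have h4 := mul_nonneg (by linarith : 0 ≤ (d03 + d23 - d02) / 2) c3
      have h5 := mul_nonneg (by linarith : 0 ≤ ((d02 + d13) - (d01 + d23)) / 2) c01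
      have h6 := mul_nonneg (by linarith : 0 ≤ ((d02 + d13) - (d03 + d12)) / 2) c03
      linarith

/-- Cut-cone property of semimetrics on at most four points: a symmetric weight with
nonnegative cut sums pairs nonnegatively with every semimetric. -/
theorem cut_cone_le4 (n : ℕ) (hn : n ≤ 4) (w d : Fin n → Fin n → ℝ)
    (hws : ∀ i j, w i j = w j i) (hds : ∀ i j, d i j = d j i) (hd0 : ∀ i, d i i = 0)
    (htri : ∀ i j k, d i k ≤ d i j + d j k)
    (hcut : ∀ S : Finset (Fin n), 0 ≤ ∑ i ∈ S, ∑ j ∈ Sᶜ, w i j) :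
    0 ≤ ∑ i, ∑ j, w i j * d i j := by
  interval_cases n
  · simp
  · simp [hd0]
  · -- two points
    have c0 := hcut {0}
    have e0 : ({0} : Finset (Fin 2))ᶜ = {1} := by decide
    rw [e0] at c0
    simp only [sum_singleton] at c0
    have hd : 0 ≤ d 0 1 := by
      have := htri 0 1 0
      rw [hd0, hds 1 0] at this
      linarith
    simp only [Fin.sum_univ_two, hd0, mul_zero, hds 1 0, hws 1 0]
    nlinarith [mul_nonneg c0 hd]
  · -- three points
    have c0 := hcut {0}
    have c1 := hcut {1}
    have c2 := hcut {2}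
    have e0 : ({0} : Finset (Fin 3))ᶜ = {1, 2} := by decide
    have e1 : ({1} : Finset (Fin 3))ᶜ = {0, 2} := by decide
    have e2 : ({2} : Finset (Fin 3))ᶜ = {0, 1} := by decide
    rw [e0] at c0
    rw [e1] at c1
    rw [e2] at c2
    simp only [sum_singleton] at c0 c1 c2
    rw [sum_pair (by decide)] at c0 c1 c2
    rw [hws 1 0] at c1
    rw [hws 2 0, hws 2 1] at c2
    have t1 := htri 0 1 2
    have t2 := htri 0 2 1
    have t3 := htri 1 0 2
    rw [hds 2 1] at t2
    rw [hds 1 0] at t3
    simp only [Fin.sum_univ_three, hd0, mul_zero, hds 1 0, hds 2 0, hds 2 1, hws 1 0, hws 2 0,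
      hws 2 1]
    have h1 := mul_nonneg (by linarith : 0 ≤ (d 0 1 + d 0 2 - d 1 2) / 2) c0
    have h2 := mul_nonneg (by linarith : 0 ≤ (d 0 1 + d 1 2 - d 0 2) / 2) c1
    have h3 := mul_nonneg (by linarith : 0 ≤ (d 0 2 + d 1 2 - d 0 1) / 2) c2
    nlinarith [h1, h2, h3]
  · -- four points
    have c0 := hcut {0}
    have c1 := hcut {1}
    have c2 := hcut {2}
    have c3 := hcut {3}
    have c01 := hcut {0, 1}
    have c02 := hcut {0, 2}
    have c03 := hcut {0, 3}
    have e0 : ({0} : Finset (Fin 4))ᶜ = {1, 2, 3} := by decide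
    have e1 : ({1} : Finset (Fin 4))ᶜ = {0, 2, 3} := by decide
    have e2 : ({2} : Finset (Fin 4))ᶜ = {0, 1, 3} := by decide
    have e3 : ({3} : Finset (Fin 4))ᶜ = {0, 1, 2} := by decide
    have e01 : ({0, 1} : Finset (Fin 4))ᶜ = {2, 3} := by decide
    have e02 : ({0, 2} : Finset (Fin 4))ᶜ = {1, 3} := by decide
    have e03 : ({0, 3} : Finset (Fin 4))ᶜ = {1, 2} := by decide
    rw [e0] at c0
    rw [e1] at c1
    rw [e2] at c2
    rw [e3] at c3
    rw [e01] at c01
    rw [e02] at c02
    rw [e03] at c03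
    simp only [sum_singleton] at c0 c1 c2 c3
    rw [sum_insert (by decide), sum_pair (by decide)] at c0 c1 c2 c3
    rw [sum_pair (by decide), sum_pair (by decide), sum_pair (by decide)] at c01 c02 c03
    rw [hws 1 0] at c1
    rw [hws 2 0, hws 2 1] at c2
    rw [hws 3 0, hws 3 1, hws 3 2] at c3
    rw [hws 2 1] at c02
    rw [hws 3 1, hws 3 2] at c03
    have key := four_aux (w 0 1) (w 0 2) (w 0 3) (w 1 2) (w 1 3) (w 2 3)
      (d 0 1) (d 0 2) (d 0 3) (d 1 2) (d 1 3) (d 2 3)
      (by have := htri 0 2 1; rw [hds 2 1] at this; exact this)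
      (by have := htri 0 1 2; exact this)
      (by have := htri 1 0 2; rw [hds 1 0] at this; exact this)
      (by have := htri 0 3 1; rw [hds 3 1] at this; exact this)
      (by have := htri 0 1 3; exact this)
      (by have := htri 1 0 3; rw [hds 1 0] at this; exact this)
      (by have := htri 0 3 2; rw [hds 3 2] at this; exact this)
      (by have := htri 0 2 3; exact this)
      (by have := htri 2 0 3; rw [hds 2 0] at this; exact this)
      (by have := htri 1 3 2; rw [hds 3 2] at this; exact this)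
      (by have := htri 1 2 3; exact this)
      (by have := htri 2 1 3; rw [hds 2 1] at this; exact this)
      (by linarith) (by linarith) (by linarith) (by linarith) (by linarith) (by linarith)
      (by linarith)
    simp only [Fin.sum_univ_four, hd0, mul_zero, hds 1 0, hds 2 0, hds 2 1, hds 3 0, hds 3 1,
      hds 3 2, hws 1 0, hws 2 0, hws 2 1, hws 3 0, hws 3 1, hws 3 2]
    linarith

end Vale.Agent.Lib.P318
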