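import Mathlib

/-!
P318 (uniform sparsest cut): the hypermetric lower bound for the cuts of the capacities
`c i j = 1 - b i * b j`, where `b` is an integer vector with coordinate sum `1`.

For every set `S` of vertices, `∑ i ∈ S, ∑ j ∈ Sᶜ, (1 - b i * b j) ≥ |S| * (n - |S|)`, because
`∑ i ∈ S, ∑ j ∈ Sᶜ, b i * b j = b(S) * (1 - b(S)) ≤ 0` for the integer `b(S) = ∑ i ∈ S, b i`.
-/

namespace Vale.Agent.Lib.P318

open Finset

theorem int_mul_one_sub_nonpos (t : ℤ) : t * (1 - t) ≤ 0 := by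
  rcases le_or_gt t 0 with h | h
  · exact mul_nonpos_of_nonpos_of_nonneg h (by omega)
  · exact mul_nonpos_of_nonneg_of_nonpos (by omega) (by omega)

/-- Hypermetric bound: for an integer vector `b` with coordinate sum `1`, every cut of the
capacities `1 - b i * b j` has value at least `|S| * (n - |S|)`. -/
theorem cut_hypermetric (n : ℕ) (b : Fin n → ℤ) (hb : ∑ i, b i = 1) (S : Finset (Fin n)) :
    (S.card : ℝ) * ((n : ℝ) - S.card) ≤ ∑ i ∈ S, ∑ j ∈ Sᶜ, (1 - (b i : ℝ) * (b j : ℝ)) := by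
  have hcard : (Sᶜ.card : ℝ) = (n : ℝ) - S.card := by
    have h := Finset.card_add_card_compl S
    rw [Fintype.card_fin] at h
    have h' : ((S.card + Sᶜ.card : ℕ) : ℝ) = (n : ℝ) := by exact_mod_cast h
    push_cast at h'
    linarith
  have hsum : (∑ i ∈ S, b i) + ∑ j ∈ Sᶜ, b j = 1 := by
    rw [Finset.sum_add_sum_compl, hb]
  have hprod : ∑ i ∈ S, ∑ j ∈ Sᶜ, (b i : ℝ) * (b j : ℝ)
      = ((∑ i ∈ S, b i : ℤ) : ℝ) * ((∑ j ∈ Sᶜ, b j : ℤ) : ℝ) := by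
    push_cast
    rw [Finset.sum_mul_sum]
  have hle : ((∑ i ∈ S, b i : ℤ) : ℝ) * ((∑ j ∈ Sᶜ, b j : ℤ) : ℝ) ≤ 0 := by
    have h1 : (∑ j ∈ Sᶜ, b j) = 1 - ∑ i ∈ S, b i := by linarith
    rw [h1]
    have h2 := int_mul_one_sub_nonpos (∑ i ∈ S, b i)
    exact_mod_cast h2
  have hone : ∑ i ∈ S, ∑ j ∈ Sᶜ, (1 : ℝ) = (S.card : ℝ) * ((n : ℝ) - S.card) := by
    simp only [sum_const, nsmul_eq_mul, mul_one]
    rw [hcard]
  calc (S.card : ℝ) * ((n : ℝ) - S.card)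
      = ∑ i ∈ S, ∑ j ∈ Sᶜ, (1 : ℝ) := hone.symm
    _ ≤ ∑ i ∈ S, ∑ j ∈ Sᶜ, (1 : ℝ) - ∑ i ∈ S, ∑ j ∈ Sᶜ, (b i : ℝ) * (b j : ℝ) := by
        rw [hprod]; linarith
    _ = ∑ i ∈ S, ∑ j ∈ Sᶜ, (1 - (b i : ℝ) * (b j : ℝ)) := by
        rw [← Finset.sum_sub_distrib]
        refine Finset.sum_congr rfl fun i _ => ?_
        rw [← Finset.sum_sub_distrib]

end Vale.Agent.Lib.P318
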